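import Crest.Agent.X212.Nov93.Main

/-!
# X212 / Nov93, part Sgn (helper93): the signature of a closed chain

`sgn : Cg28.HdlStmt → Cg28.SgnStmt`.
-/

set_option autoImplicit false
set_option linter.unusedSectionVars false

open Set Filter Topology Function Module
open scoped ContDiff Manifold
open Crest.Agent.R208 Crest.Agent.R208.F Crest.Agent.X212.Dr59
open Crest.Agent.X212.Int54 Crest.Agent.X212.Cyl58 Crest.Agent.X212.Rod53 Crest.Agent.X212.Cg28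

noncomputable section

namespace Crest.Agent.X212.Nov93

theorem kb_pd {M N : Type} [TopologicalSpace M] [ChartedSpace E4 M] [IsManifold (𝓡 4) ∞ M]
    [TopologicalSpace N] [ChartedSpace E4 N] [IsManifold (𝓡 4) ∞ N]
    (Φ : PartialDiffeomorph (𝓡 4) (𝓡 4) M N ∞) {U W : Set M} (hU : IsOpen U) (hs : U ⊆ Φ.source)
    {h : W ⊆ U} {n : ℕ} (k : KB h n) {U' W' : Set N} (e : U' = Φ '' U) (e' : W' = Φ '' W)
    (h' : W' ⊆ U') : KB h' n := by
  subst e e'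
  refine (LinearMap.rank_le_of_injective (((pd_mp Φ hs).st 2).restrict fun x hx => ?_)
    fun x y e => Subtype.ext ((pd_st_bij Φ hU hs).1 (congrArg Subtype.val e))).trans k
  rw [LinearMap.mem_ker, Mp.res_st]
  exact ((pd_mp Φ (h.trans hs)).st_res h' x).symm.trans (by rw [hx, map_zero])

theorem sgn0 {M : Type} [TopologicalSpace M] [ChartedSpace E4 M] [IsManifold (𝓡 4) ∞ M]
    [T2Space M] [SecondCountableTopology M] [MeasurableSpace M] [BorelSpace M] {τ : M → ℝ}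
    (hτ : Continuous τ) {O : M → Ext E4} (hO : Ori (𝓡 4) O) {L : ℝ} {g} (hg : Jc τ O L g) {Z : C4}
    {i : M → Z.Z} (hi : Cy τ O L g Z i) {Y : Type} [TopologicalSpace Y] [ChartedSpace E3 Y]
    [IsManifold (𝓡 3) ∞ Y] [T2Space Y] [CompactSpace Y] [SecondCountableTopology Y] (y₀ : Y)
    {σ : ℝ → ℝ} (sm : StrictMono σ) (hσ : Continuous σ) (rg : range σ = Ioo 0 1)
    {f : Y × ℝ → M} (hy : IsOE ((𝓡 3).prod 𝓘(ℝ, ℝ)) (𝓡 4) f) (ty : ∀ p, τ (f p) = σ p.2)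
    (im₀ : ∀ S, f '' (univ ×ˢ S) = τ ⁻¹' (σ '' S)) {n : ℕ} (hL : (n : ℝ) + 2 ≤ L)
    {e : Fin n → M → Ext E4}
    (he : ∀ j : Fin n, Cs (𝓡 4) 2 (τ ⁻¹' Ioo ((j.1 : ℝ) + 3 / 2) (j.1 + 5 / 2)) (e j))
    (hn : ∀ j, integ (𝓡 4) O (e j * e j) < 0)
    (hk : ∀ α γ, α < 1 → ∀ h : τ ⁻¹' Ioo α 1 ⊆ τ ⁻¹' Ioo α γ, KB h n) : Z.sg = -n := by
  have m : ∀ s, σ s ∈ Ioo 0 1 := fun s => rg ▸ mem_range_self s
  have n0 : (0 : ℝ) ≤ n := Nat.cast_nonneg _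
  obtain ⟨a0, -⟩ := m (-1)
  obtain ⟨b0, b1⟩ := m 1
  have ab : σ (-1) < σ 1 := sm (by norm_num)
  have key : ∀ x y, τ x ∈ Ioo 0 (L + 1) → τ y ∈ Ioo 0 (L + 1) → i x = i y →
      |τ x - τ y| < L → x = y := fun x y hx hy e k => by
    rw [abs_lt] at k
    rcases le_total (τ x) (τ y) with h | h
    · exact (hi.inj x y hx hy h e).resolve_right fun ⟨h1, h2⟩ => by
        linarith [h2 ▸ hg.tm y h1, k.1]
    · exact ((hi.inj y x hy hx h e.symm).resolve_right fun ⟨h1, h2⟩ => by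
        linarith [h2 ▸ hg.tm x h1, k.2]).symm
  have my : ∀ p, τ (f p) ∈ Ioo 0 (L + 1) := fun p =>
    (ty p).symm ▸ ⟨(m _).1, by linarith [(m p.2).2]⟩
  have hφ : IsOE ((𝓡 3).prod 𝓘(ℝ, ℝ)) (𝓡 4) (i ∘ f) :=
    ⟨fun p q k => hy.inj (key _ _ (my p) (my q) k (by
      rw [ty, ty, abs_lt]
      constructor <;> linarith [(m p.2).1, (m p.2).2, (m q.2).1, (m q.2).2])),
    fun p => (hy.loc p).comp _ _ (hi.ld _ (my p))⟩
  have hW : IsOpen (τ ⁻¹' Ioo (σ 1) (L + σ (-1))) :=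
    isOpen_Ioo.preimage hτ
  have sW : ∀ x ∈ τ ⁻¹' Ioo (σ 1) (L + σ (-1)), τ x ∈ Ioo 0 (L + 1) :=
    fun x hx => ⟨b0.trans hx.1, by linarith [hx.2]⟩
  obtain ⟨Φ, hΦ, rfl⟩ : ∃ Φ : PartialDiffeomorph (𝓡 4) (𝓡 4) M Z.Z ∞,
      Φ.source = τ ⁻¹' Ioo (σ 1) (L + σ (-1)) ∧ ⇑Φ = i := ⟨pdOn hW ⟨f (y₀, 2),
    (ty _).symm ▸ sm one_lt_two, (ty _).trans_lt (by linarith [(m 2).2])⟩
    (fun x hx => hi.ld x (sW x hx)) fun x hx y hy k => key x y (sW x hx) (sW y hy) k (by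
      rw [abs_lt]; constructor <;> linarith [hx.1, hx.2, hy.1, hy.2]), rfl, rfl⟩
  have j1 : ∀ j : Fin n, (j.1 : ℝ) + 1 ≤ n := fun j => by exact_mod_cast j.2
  have j0 : ∀ j : Fin n, (0 : ℝ) ≤ j.1 := fun j => Nat.cast_nonneg _
  have sS : ∀ j : Fin n, τ ⁻¹' Ioo ((j.1 : ℝ) + 3 / 2) (j.1 + 5 / 2) ⊆ τ ⁻¹' Ioo (σ 1) (L + σ (-1)) :=
    fun j x hx => ⟨by linarith [hx.1, j0 j], by linarith [hx.2, j1 j]⟩
  have gram : ∀ j k, integ (𝓡 4) Z.o (psh Φ (e j) * psh Φ (e k)) = ip (𝓡 4) (O) (e j) (e k) :=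
    fun j k => ((he k).ip_psh Φ ((sS k).trans hΦ.ge) Z.ori hO
      (fun x hx => SameOn.symm hi.pos x (sW x (sS k hx))) _).trans
        ((he k).ip_congr fun x hx => pm_psh Φ (hΦ.ge (sS k hx)) _)
  have im : ∀ S, (Φ ∘ f) '' (univ ×ˢ S) =
      Φ '' (τ ⁻¹' (σ '' S)) := fun S => by rw [image_comp, im₀]
  have e1 : σ '' Ioi 1 = Ioo (σ 1) 1 := Subset.antisymm (by
    rintro _ ⟨s, hs, rfl⟩; exact ⟨sm hs, (m s).2⟩) fun x hx => by
      obtain ⟨s, rfl⟩ := rg.ge ⟨b0.trans hx.1, hx.2⟩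
      exact ⟨s, sm.lt_iff_lt.1 hx.1, rfl⟩
  have e2 : ((Φ ∘ f) '' (univ ×ˢ Icc (-1) 1))ᶜ = Φ '' (τ ⁻¹' Ioo (σ 1) (L + σ (-1))) := by
    rw [im, hσ.continuousOn.image_Icc_of_monotoneOn (by norm_num)
      (sm.monotone.monotoneOn _)]
    refine Subset.antisymm (fun z hz => ?_) ?_
    · obtain ⟨x, hx, rfl⟩ := hi.surj z
      have k : ∀ y, Φ y = Φ x → τ y < σ (-1) ∨ σ 1 < τ y := fun y k => by
        by_contra! h
        exact hz ⟨y, h, k⟩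
      rcases k x rfl with h | h
      · have t : x ∈ g.target := hg.tgt ▸ ⟨hx.1, by linarith⟩
        have s := g.map_target t
        have := hg.tm _ s
        rw [g.right_inv t] at this
        exact ⟨_, ⟨by linarith [hx.1], by linarith⟩, (hi.glue _ s).symm.trans
          (congrArg Φ (g.right_inv t))⟩
      · rcases lt_or_ge (τ x) (L + σ (-1)) with h' | h'
        · exact ⟨x, ⟨h, h'⟩, rfl⟩
        · have s : x ∈ g.source := hg.src ▸ ⟨by linarith, hx.2⟩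
          have := hg.tm _ s
          exact ⟨_, ⟨(k _ (hi.glue x s)).resolve_left (by linarith), by linarith [hx.2]⟩,
            hi.glue x s⟩
    · rintro _ ⟨x, hx, rfl⟩ ⟨y, hy, k⟩
      obtain rfl := key y x ⟨by linarith [hy.1], by linarith [hy.2]⟩ (sW x hx) k (by
        rw [abs_lt]; constructor <;> linarith [hx.1, hx.2, hy.1, hy.2])
      exact hx.1.not_ge hy.2
  have e3 := (im (Ioi 1)).trans (congrArg (fun S => Φ '' (τ ⁻¹' S)) e1)
  have hs : τ ⁻¹' Ioo (σ 1) 1 ⊆ τ ⁻¹' Ioo (σ 1) (L + σ (-1)) :=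
    preimage_mono (Ioo_subset_Ioo_right (by linarith))
  have hh := e3.subset.trans ((image_mono hs).trans e2.superset)
  refine nov Z _ _ hφ n (fun j => psh Φ (e j)) (fun j => ((he j).psh Φ ((sS j).trans hΦ.ge)).cl)
    (fun j z => ((he j).psh Φ ((sS j).trans hΦ.ge)).eq_zero ?_) (fun j k h => (gram j k).trans
      ((he j).ip_disj (he k) (disjoint_left.2 fun x h1 h2 => h (Fin.ext ?_))))
    (fun j => (gram j j).trans_lt (hn j)) hh
    (kb_pd Φ hW hΦ.ge (hk _ _ b1 hs) e2 e3 hh)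
  · rintro ⟨x, hx, k⟩
    have t := ty z
    obtain rfl := key x _ (sW x (sS j hx)) (my z) k (by
      rw [abs_lt]; constructor <;> linarith [hx.1, hx.2, j0 j, j1 j, (m z.2).1, (m z.2).2])
    linarith [hx.1, j0 j, (m z.2).2]
  · have h3 : (j.1 : ℝ) < k.1 + 1 := by linarith [h1.1, h2.2]
    have h4 : (k.1 : ℝ) < j.1 + 1 := by linarith [h1.2, h2.1]
    norm_cast at h3 h4
    omega

theorem sgn (hdl : HdlStmt) : SgnStmt := fun B L c _ hg _ _ hi _ he hn => by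
  obtain ⟨b, hu⟩ := c.isWd.prim 1
  have hσ : ∀ s, sig 0 1 s ∈ Jr c.v (c.a 1) :=
    fun s => c.lo_Jr ((sig_mem zero_lt_one s).2.trans one_lt_two)
  exact sgn0 B.T.continuous_time (B.ox c).ori hg hi ((B.T.fl hu).it (1, 0))
    (strictMono_sig zero_lt_one) (isOE_sig zero_lt_one).continuous (range_sig zero_lt_one)
    ((B.T.fl hu).isOE_yb hu (isOE_sig zero_lt_one) hσ) ((B.T.fl hu).time_yb hu hσ)
    ((B.T.fl hu).image_yb hu hσ) (by exact_mod_cast c.le) he hn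
    fun α γ h => hdl B L c α 1 γ h le_rfl

end Crest.Agent.X212.Nov93
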