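import Crest.Agent.X212.Num57.Hod
import Crest.Agent.X212.Num57.Cnn
import Crest.Agent.X212.Dr59.Tor

/-!
# X212 / Nov93, part Pd (helper93): duality in dimensions four and three

* `hodge` : `H²` of a closed oriented four-manifold is finite dimensional, `b⁺ + b⁻ = b₂`, `Q` is
  nondegenerate;  `pd3` : a closed two-form on a closed oriented three-manifold that pairs to zero
  with all closed one-forms is exact;  `sig_lag` : linear algebra.
-/

set_option autoImplicit false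
set_option linter.unusedSectionVars false

open Set Filter Topology Function Module
open scoped ContDiff Manifold Real
open Crest.Agent.R208 Crest.Agent.R208.F Crest.Agent.R208.FI Crest.Agent.X212.Dr59
open Crest.Agent.X212.Int54 Crest.Agent.X212.Num57
open Crest.Agent.X212.Orx52 (oC ori_oC pm_exp_oC)

noncomputable section

namespace Crest.Agent.X212.Nov93

/-- an isotropic `L` whose annihilator lies in `R = L + V`, `V` negative definite -/
theorem sig_lag {W : Type*} [AddCommGroup W] [Module ℝ W] [FiniteDimensional ℝ W]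
    {B : W →ₗ[ℝ] W →ₗ[ℝ] ℝ} (hs : ∀ x y, B x y = B y x) {L R V : Submodule ℝ W} (h1 : L ≤ R)
    (h2 : V ≤ R) (h3 : ∀ x ∈ L, ∀ y ∈ R, B x y = 0) (h4 : ∀ y, (∀ x ∈ L, B x y = 0) → y ∈ R)
    (h5 : ∀ x ∈ V, x ≠ 0 → B x x < 0) (h6 : finrank ℝ R ≤ finrank ℝ L + finrank ℝ V)
    (h7 : sigPos (LinearMap.BilinMap.toQuadraticMap B) +
      sigNeg (LinearMap.BilinMap.toQuadraticMap B) = finrank ℝ W) :
    (sigPos (LinearMap.BilinMap.toQuadraticMap B) : ℤ) -
      sigNeg (LinearMap.BilinMap.toQuadraticMap B) = -finrank ℝ V := by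
  have k1 : finrank ℝ (L ⊔ V :) = finrank ℝ L + finrank ℝ V := by
    rw [← Submodule.finrank_sup_add_finrank_inf_eq, show L ⊓ V = ⊥ from
      (Submodule.eq_bot_iff _).2 fun x hx => by_contra fun h =>
        (h5 x hx.2 h).ne (h3 x hx.1 x (h1 hx.1)), finrank_bot, add_zero]
  have k2 : L ⊔ V = R := Submodule.eq_of_le_of_finrank_le (sup_le h1 h2) (k1 ▸ h6)
  have k3 := QuadraticForm.sigPos_add_finrank_le_of_nonpos
    (Q := LinearMap.BilinMap.toQuadraticMap B) (V := R) fun x hx => by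
      obtain ⟨l, hl, v, hv, rfl⟩ := Submodule.mem_sup.1 (k2 ▸ hx : x ∈ L ⊔ V)
      rw [LinearMap.BilinMap.toQuadraticMap_apply, map_add B, LinearMap.add_apply, h3 l hl _ hx,
        map_add, hs v l, h3 l hl v (h2 hv), zero_add, zero_add]
      rcases eq_or_ne v 0 with rfl | h
      · simp
      · exact (h5 v hv h).le
  have k4 := QuadraticForm.sigPos_add_finrank_le_of_nonpos
    (Q := -LinearMap.BilinMap.toQuadraticMap B) (V := L) fun x hx => by
      simp [h3 x hx x (h1 hx)]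
  have k5 := (finrank_le_of_ker R.subtype (B.domRestrict L).flip fun y hy =>
    ⟨⟨y, h4 y fun x hx => LinearMap.congr_fun hy ⟨x, hx⟩⟩, rfl⟩).2
  rw [show finrank ℝ (L →ₗ[ℝ] ℝ) = finrank ℝ L from Subspace.dual_finrank_eq] at k5
  rw [sigPos_neg] at k4
  rw [k2] at k1
  omega

variable {E : Type} [NormedAddCommGroup E] [NormedSpace ℝ E] [FiniteDimensional ℝ E]
  [MeasurableSpace E] [BorelSpace E]
  {H : Type} [TopologicalSpace H] {I : ModelWithCorners ℝ E H} [I.Boundaryless]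
  {M : Type} [TopologicalSpace M] [ChartedSpace H M] [IsManifold I ∞ M]
  [MeasurableSpace M] [BorelSpace M] [SecondCountableTopology M] [T2Space M] [CompactSpace M]
  {o a : M → Ext E}

theorem hodge (h4 : finrank ℝ E = 4) (ho : Ori I o) :
    FiniteDimensional ℝ (HR I 2 (univ : Set M)) ∧ bp ho + bm ho = bb I M 2 ∧
      ∀ y, (∀ z, Q ho y z = 0) → y = 0 := by
  obtain ⟨N, F, hF⟩ := Met55.exists_fr (I := I) (M := M)
  have hv := ho.unit_vol F.toPre
  have h : OK F (oc F.e (volF o F.e)) := ⟨h4, hF, fun a b c d => oc_sm a b c d F.toPre (ho.vol _).sm,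
    fun x => ⟨fr_pr F x, (fr_rk F x).trans (by rw [h4]; norm_num), fun a b c d => oc_12 a b c d x,
      fun a b c d => oc_23 a b c d x, fun a b c d => oc_34 a b c d x, fun a b c d => oc_P a b c d x,
      hv.oc_nm x h4⟩⟩
  have s := (sameOn_vol_oc F h4 hv).trans (ho.sameOn_volF (pre_sp F.toPre) univ).symm
  exact ⟨h.fin2, by rw [← bp_ori h.ori ho s, ← bm_ori h.ori ho s, h.bp_add_bm],
    fun y hy => h.Q_nondeg (Q_ori h.ori ho s ▸ hy)⟩

/-- a closed form on the cylinder is cohomologous to the pull-back of its slice -/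
theorem ex_sl {k : ℕ} {w : M × ℝ → Ext (E × ℝ)} (hw : Cl (I.prod 𝓘(ℝ, ℝ)) k univ w) :
    Cl I k univ (sl I 𝓘(ℝ, ℝ) 0 w) ∧
      Ex (I.prod 𝓘(ℝ, ℝ)) univ (w - pm (I.prod 𝓘(ℝ, ℝ)) I Prod.fst (sl I 𝓘(ℝ, ℝ) 0 w)) := by
  rw [← univ_prod_univ] at hw ⊢
  exact ⟨hw.pm (mp_inl univ trivial), (cls_eq.1 (st_fst_inl isOpen_univ isOpen_univ
    (mem_univ (0 : ℝ)) (starConvex_univ _) hw.cls)).symm⟩

/-- **duality in dimension three** -/
theorem pd3 (h3 : finrank ℝ E = 3) (ho : Ori I o) (ha : Cl I 2 univ a)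
    (h : ∀ c, Cl I 1 univ c → integ I o (a * c) = 0) : Ex I univ a := by
  borelize Circle
  have mf {S : Type} {E' H' : Type} [NormedAddCommGroup E'] [NormedSpace ℝ E'] [TopologicalSpace H']
      [TopologicalSpace S] [ChartedSpace H' S] (J : ModelWithCorners ℝ E' H') :
      Mp (I.prod J) I univ univ (Prod.fst : M × S → M) :=
    ⟨fun _ _ => contMDiffAt_fst, mapsTo_univ _ _⟩
  have ms (t : ℝ) : Mp I (I.prod 𝓘(ℝ, ℝ)) univ univ fun x : M => (x, t) :=
    ⟨fun _ _ => contMDiffAt_id.prodMk contMDiffAt_const, mapsTo_univ _ _⟩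
  have mψ : Mp (I.prod 𝓘(ℝ, ℝ)) (I.prod (𝓡 1)) univ univ (Prod.map (id : M → M) Circle.exp) :=
    .of_contMDiff (contMDiff_id.prodMap contMDiff_circleExp) (mapsTo_univ _ _)
  have e1 (t : ℝ) (b : M → Ext E) : sl I 𝓘(ℝ, ℝ) t (pm (I.prod 𝓘(ℝ, ℝ)) I Prod.fst b) = b :=
    funext fun x => (pm_comp mdifferentiableAt_fst (((ms t).sm x trivial).mdifferentiableAt ne0)).trans
      (congrFun (pm_id b) x)
  have key := (hodge (I := I.prod (𝓡 1)) (by simp [h3]) (ho.pr ori_oC)).2.2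
    (ha.pm (mf (𝓡 1))).cls fun z => by
    obtain ⟨z, hz, rfl⟩ := exists_cls z
    have hw := hz.pm mψ
    obtain ⟨hc, hx⟩ := ex_sl hw
    obtain ⟨r, r1, r2, r3⟩ := hx.deg (k := 1) (hw.sub (hc.pm (mf _))).dg
    have hb := (ha.pm (mf 𝓘(ℝ, ℝ))).sm.mul r1
    have d (t : ℝ) (x : M) : dM I (sl I 𝓘(ℝ, ℝ) t r) x = pm I (I.prod (𝓡 1))
        (fun x => (x, Circle.exp t)) z x - sl I 𝓘(ℝ, ℝ) 0
          (pm (I.prod 𝓘(ℝ, ℝ)) (I.prod (𝓡 1)) (Prod.map id Circle.exp) z) x := by
      rw [sl, dM_pm ne0 ((ms t).sm x trivial) (r1 _ trivial), pm_congr_right (r3 _ trivial), pm_sub,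
        Pi.sub_apply, pm_comp ((mψ.sm _ trivial).mdifferentiableAt ne0)
          (((ms t).sm x trivial).mdifferentiableAt ne0), ← sl, e1]
      rfl
    have s (t : ℝ) : Sm I univ (sl I 𝓘(ℝ, ℝ) t r) := r1.pm (ms t)
    have e2 (t : ℝ) : sl I 𝓘(ℝ, ℝ) t (pm (I.prod 𝓘(ℝ, ℝ)) I Prod.fst a * r) = a * sl I 𝓘(ℝ, ℝ) t r :=
      (pm_mul _ _ _).trans (congrArg (· * _) (e1 t a))
    rw [Q_cls, ← integOn_univ, show (univ : Set (M × Circle)) =
        Prod.map id Circle.exp '' (univ ×ˢ Ioc (-π) π) by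
      rw [prodMap_image_prod, image_id, eq_univ_of_univ_subset Circle.surjOn_exp_neg_pi_pi,
        univ_prod_univ], integOn_map (by simp) (ho.pr ori_oC) ho.cy
      (MeasurableSet.univ.prod measurableSet_Ioc) (fun w _ => mψ.sm w trivial)
      ((injOn_id _).prodMap (Circle.exp_injOn_Ioc (by linarith))) fun w _ => by
        rw [pm_pr mdifferentiableAt_id ((contMDiff_circleExp _).mdifferentiableAt ne0), pm_id,
          pm_exp_oC, oR_eq_dt]
        exact ho.cy.same univ w trivial,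
      integOn_congr (b := dM (I.prod 𝓘(ℝ, ℝ)) (pm (I.prod 𝓘(ℝ, ℝ)) I Prod.fst a * r)) (MeasurableSet.univ.prod measurableSet_Ioc)
        ?_, stokes_slab ho (fun w => hb w trivial) (by linarith [Real.pi_pos]),
      e2, e2, ← integ_sub (intOn_sm ho (ha.sm.mul (s _))) (intOn_sm ho (ha.sm.mul (s _))), ← mul_sub,
      h _ ⟨(s _).sub (s _), (r2.pm (ms _).maps).sub (r2.pm (ms _).maps), ?_⟩, mul_zero]
    · intro x _
      rw [dM_sub ne0 (s _ x trivial) (s _ x trivial), d, d, sub_sub_sub_cancel_right,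
        show Circle.exp (-π) = Circle.exp π from Circle.exp_eq_exp.2 ⟨-1, by push_cast; ring⟩,
        sub_self]
    · intro w _
      rw [dM_mul ne0 ((ha.pm (mf _)).sm w trivial) (r1 w trivial), (ha.pm (mf _)).cl w trivial,
        zero_mul, zero_add, inv_of_deg ((ha.pm (mf _)).dg w trivial), r3 w trivial, pm_mul,
        Pi.mul_apply, pm_comp mdifferentiableAt_fst ((mψ.sm w trivial).mdifferentiableAt ne0),
        Pi.sub_apply, neg_one_sq, one_smul, mul_sub, pm_apply (a := a) (f := Prod.fst),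
        pm_apply (f := Prod.fst), ← map_mul, ← Pi.mul_apply a,
        ((ha.mul hc).dg _ trivial).eq_zero (by omega), map_zero, sub_zero]
      rfl
  have m : Mp I (I.prod (𝓡 1)) univ univ fun x : M => (x, (1 : Circle)) :=
    ⟨fun _ _ => contMDiffAt_id.prodMk contMDiffAt_const, mapsTo_univ _ _⟩
  exact ((cls_eq_zero.1 key).pm m).congr fun x _ => ((pm_comp mdifferentiableAt_fst
    ((m.sm x trivial).mdifferentiableAt ne0)).trans (congrFun (pm_id a) x)).symm

end Crest.Agent.X212.Nov93
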