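import Crest.Agent.X212.Nov93.Pd
import Crest.Agent.X212.Qab60.Neck
import Crest.Agent.X212.Cg28.Defs

/-!
# X212 / Nov93, part Main (helper93): Novikov additivity, cyclic form

`orth` (classes vanishing on the two pieces of a cover are orthogonal), `ex_neck` (duality along a
neck), `nov : Cg28.NovStmt`.
-/

set_option autoImplicit false
set_option linter.unusedSectionVars false

open Set Filter Topology Function Module
open scoped ContDiff Manifold
open Crest.Agent.R208 Crest.Agent.R208.F Crest.Agent.R208.FI Crest.Agent.X212.Dr59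
open Crest.Agent.X212.Int54 Crest.Agent.X212.Num57 Crest.Agent.X212.Cyl58

noncomputable section

namespace Crest.Agent.X212.Nov93

variable {E : Type} [NormedAddCommGroup E] [NormedSpace ℝ E] [FiniteDimensional ℝ E]
  [MeasurableSpace E] [BorelSpace E]
  {H : Type} [TopologicalSpace H] {I : ModelWithCorners ℝ E H} [I.Boundaryless]
  {M : Type} [TopologicalSpace M] [ChartedSpace H M] [IsManifold I ∞ M]
  [MeasurableSpace M] [BorelSpace M] [SecondCountableTopology M] [T2Space M] [CompactSpace M]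
  {E' : Type} [NormedAddCommGroup E'] [NormedSpace ℝ E'] [FiniteDimensional ℝ E']
  [MeasurableSpace E'] [BorelSpace E']
  {H' : Type} [TopologicalSpace H'] {J : ModelWithCorners ℝ E' H'} [J.Boundaryless]
  {N : Type} [TopologicalSpace N] [ChartedSpace H' N] [IsManifold J ∞ N]
  [MeasurableSpace N] [BorelSpace N] [SecondCountableTopology N] [T2Space N] [CompactSpace N]
  {o a b : M → Ext E} {U V : Set M}

theorem orth {k l : ℕ} (ho : Ori I o) (hU : IsOpen U) (hV : IsOpen V) (h : ∀ x, x ∈ V ∪ U)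
    (ha : Cl I k univ a) (hb : Cl I (l + 1) univ b) (h1 : Ex I U a) (h2 : Ex I V b) :
    integ I o (a * b) = 0 := by
  obtain ⟨χ, hχ⟩ := exists_cut (I := I) hV hU
  obtain ⟨β, k1, k2, k3⟩ := h2.deg (hb.dg.mono (subset_univ _))
  have z : Cz I univ V χ :=
    ⟨fun x _ => hχ.sm x (h x), fun x _ hx => hχ.z x ((h x).resolve_left hx) hx⟩
  have c := z.cf.cl_cut hb k1 k2 fun x _ => k3 x
  have e := (show Cs I (l + 1) U (b - cut I χ b β) from ⟨hb.sub c, .of_compactSpace _,
    fun x hx => by_contra fun k => notMem_tsupport_iff_eventuallyEq.2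
      ((hχ.o x ((h x).resolve_right k) k).eventually_nhds.mono fun y hy =>
        sub_eq_zero.2 (cut_eq_self hy).symm) hx⟩).ip_ex ho h1
  rwa [ip, mul_sub, integ_sub (intOn_sm ho (ha.mul hb).sm) (intOn_sm ho (ha.mul c).sm),
    integ_ex ho (ha.mul_ex (z.ex_cut k1 fun x _ => k3 x)), sub_zero] at e

/-- a class orthogonal to the exact forms with compact support in a neck is exact on the neck -/
theorem ex_neck (h3 : finrank ℝ E = 3) {O w : N → Ext E'} (hO : Ori J O) {φ : M × ℝ → N}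
    (hφ : IsOE (I.prod 𝓘(ℝ, ℝ)) J φ) (hw : Cl J 2 univ w)
    (h : ∀ e, Cs J 2 (φ '' (univ ×ˢ Icc (-1) 1)) e → Ex J (range φ) e → integ J O (e * w) = 0) :
    Ex J (range φ) w := by
  rcases isEmpty_or_nonempty M with _ | _
  · exact ex_of_zero fun _ ⟨y, _⟩ => isEmptyElim y.1
  obtain ⟨_, G, -⟩ := Met55.exists_fr (I := I) (M := M)
  obtain ⟨o, ho, hs⟩ := Qab60.exists_cy G (hO.pm hφ.loc)
  have mf : Mp (I.prod 𝓘(ℝ, ℝ)) I univ univ (Prod.fst : M × ℝ → M) :=
    ⟨fun _ _ => contMDiffAt_fst, mapsTo_univ _ _⟩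
  obtain ⟨hc, hx⟩ := ex_sl (hw.pm (.of_contMDiff hφ.contMDiff (mapsTo_univ _ univ)))
  have r : (0 : ℝ) < 1 / 2 := one_half_pos
  have key := pd3 h3 ho hc fun c k => by
    have s : ∀ z ∈ (univ : Set (M × ℝ)), ContMDiffAt (I.prod 𝓘(ℝ, ℝ)) 𝓘(ℝ, ℝ) ∞
        (fun z : M × ℝ => sw (1 / 2) z.2) z :=
      fun z _ => ((contDiff_sw _).contMDiff.comp contMDiff_snd) z
    have d := (contDiff_sw (1 / 2)).differentiable ne0
    have z : ∀ p ∉ (univ : Set M) ×ˢ Icc (-1 : ℝ) 1, (pm (I.prod 𝓘(ℝ, ℝ)) I Prod.fst c *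
        df (I.prod 𝓘(ℝ, ℝ)) fun z : M × ℝ => sw (1 / 2) z.2 :) p = 0 := fun p hp => by
      rw [Pi.mul_apply, df_snd d, pm_snd, Pi.smul_apply', deriv_sw r fun k => hp
        ⟨trivial, by linarith [k.1], by linarith [k.2]⟩, zero_smul, map_zero, mul_zero]
    have K := (isCompact_univ (X := M)).prod (isCompact_Icc (a := (-1 : ℝ)) (b := 1))
    have cs : Cs (I.prod 𝓘(ℝ, ℝ)) 2 ((univ : Set M) ×ˢ Icc (-1 : ℝ) 1) _ := ⟨(k.pm mf).mul (cl_df s), .intro K z,
      closure_minimal (fun p hp => by_contra fun n => hp (z p n)) K.isClosed⟩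
    have e := h _ (cs.psh hφ.pd (subset_univ _)) (image_univ ▸ ex_oe hφ.loc hφ.inj isOpen_univ
      (((k.pm mf).mul_ex (ex_df s)).congr fun p _ => pm_psh hφ.pd trivial _))
    rw [← ip, ← ip_comm hw.dg, cs.ip_psh hφ.pd (subset_univ _) hO ho.cy (hs.mono (subset_univ _)),
      (cs.mono (subset_univ _)).ip_coh (c := pm _ J hφ.pd w) ho.cy (hw.pm (.of_contMDiff
        hφ.contMDiff (mapsTo_univ _ univ))).sm (hc.pm mf).sm hx, ip, ← mul_assoc, ← pm_mul,
      integ_neck ho.cd _ d, integral_deriv_sw r, mul_one] at e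
    exact e
  rw [← image_univ]
  exact ex_oe hφ.loc hφ.inj isOpen_univ (by simpa using hx.add (key.pm mf))

/-- **Novikov additivity** -/
theorem nov : Cg28.NovStmt := fun Z Y _ _ _ _ _ _ φ hφ n e he h0 ho hn h hk => by
  borelize Y
  obtain ⟨f2, hb, -⟩ := hodge (I := 𝓡 4) (by simp) Z.ori
  have hA := ((isCompact_univ.prod (isCompact_Icc (a := (-1 : ℝ)) (b := 1))).image
    hφ.continuous).isClosed.isOpen_compl
  let T := Fintype.linearCombination ℝ fun j => (he j).cls
  have neg : ∀ x, x ≠ 0 → Q Z.ori (T x) (T x) < 0 := fun x hx => by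
    obtain ⟨i, hi⟩ := ne_iff.1 hx
    have : Q Z.ori (T x) (T x) = ∑ j, x j * x j * integ (𝓡 4) Z.o (e j * e j) := by
      simp only [T, Fintype.linearCombination_apply, map_sum, map_smul, LinearMap.sum_apply,
        LinearMap.smul_apply, Q_cls, smul_eq_mul]
      exact Finset.sum_congr rfl fun j _ => by
        rw [Finset.sum_eq_single j (fun i _ k => by rw [ho i j k, mul_zero]) (by simp), mul_assoc]
    exact this ▸ Finset.sum_neg' (fun j _ => mul_nonpos_of_nonneg_of_nonpos (mul_self_nonneg _)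
      (hn j).le) ⟨i, Finset.mem_univ _, mul_neg_of_pos_of_neg (mul_self_pos.2 hi) (hn i)⟩
  have hT : finrank ℝ (LinearMap.range T) = n := by
    rw [LinearMap.finrank_range_of_inj ((injective_iff_map_eq_zero _).2 fun x hx =>
      by_contra fun k => (neg x k).ne (by rw [hx, map_zero])), finrank_fin_fun]
  have fk := Module.rank_lt_aleph0_iff.1 (lt_of_le_of_lt hk Cardinal.natCast_lt_aleph0)
  let R := LinearMap.ker (res (I := 𝓡 4) (k := 2) (subset_univ (range φ)))
  let L := LinearMap.ker (res (I := 𝓡 4) (k := 2)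
    (subset_univ (φ '' (univ ×ˢ Icc (-1) 1))ᶜ)) ⊓ R
  have := sig_lag (Q_symm Z.ori) (L := L) (R := R) (V := LinearMap.range T) inf_le_right ?_
    (fun x hx y hy => ?_) (fun y hy => ?_) (by rintro _ ⟨x, rfl⟩ k; exact neg x (mt (by
      rintro rfl; exact map_zero T) k)) ?_ hb
  · rwa [hT] at this
  · rintro _ ⟨x, rfl⟩
    rw [Fintype.linearCombination_apply]
    exact R.sum_mem fun j _ => R.smul_mem _ (cls_eq_zero.2 (ex_of_zero (forall_mem_range.2 (h0 j))))
  · obtain ⟨a, ha, rfl⟩ := exists_cls x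
    obtain ⟨b, hb, rfl⟩ := exists_cls y
    exact orth Z.ori hA hφ.isOpen_range (fun x => (em _).imp_right (mt fun k =>
      image_subset_range _ _ k)) ha hb (cls_eq_zero.1 hx.1) (cls_eq_zero.1 hy)
  · obtain ⟨a, ha, rfl⟩ := exists_cls y
    exact cls_eq_zero.2 (ex_neck (by simp) Z.ori hφ ha fun c k1 k2 => hy k1.cl.cls
      ⟨cls_eq_zero.2 (ex_of_zero fun _ => k1.eq_zero), cls_eq_zero.2 k2⟩)
  · rw [hT]
    exact (finrank_le_of_ker (Submodule.inclusion (inf_le_right : L ≤ R))
      (((res (subset_univ _)).domRestrict R).codRestrict (LinearMap.ker (res h)) fun x => by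
        rw [LinearMap.mem_ker, LinearMap.domRestrict_apply, res_res,
          ← res_res (subset_univ _) (image_subset_range _ _), x.2, map_zero]) fun y hy =>
      ⟨⟨y, congrArg Subtype.val hy, y.2⟩, rfl⟩).2.trans
        (Nat.add_le_add_left (Module.finrank_le_of_rank_le hk) _)

end Crest.Agent.X212.Nov93
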